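import Vale.Agent.P183XC.Lin
import Mathlib.LinearAlgebra.Matrix.SpecialLinearGroup
import Mathlib.LinearAlgebra.Matrix.SchurComplement
import Mathlib.GroupTheory.QuotientGroup.Basic

/-!
Linear groups modulo their centre are linear; Heisenberg data in `SL_n(F)`.
-/

set_option autoImplicit false

namespace Vale.Agent.P183XC

open Module Matrix

section modZ

variable {G : Type*} [Group G] {k : Type} [Field k] {n : Type} [Fintype n] [DecidableEq n]

/-- the span of the image of a matrix representation -/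
def spanOf (φ : G →* Matrix n n k) : Submodule k (Matrix n n k) := Submodule.span k (Set.range φ)

lemma conj_mem (φ : G →* Matrix n n k) (g : G) {M : Matrix n n k} (hM : M ∈ spanOf φ) :
    φ g * M * φ g⁻¹ ∈ spanOf φ := by
  induction hM using Submodule.span_induction with
  | mem x hx =>
    obtain ⟨y, rfl⟩ := hx
    exact Submodule.subset_span ⟨g * y * g⁻¹, by simp⟩
  | zero => simp
  | add x y _ _ hx hy => rw [mul_add, add_mul]; exact add_mem hx hy
  | smul c x _ hx => rw [Matrix.mul_smul, Matrix.smul_mul]; exact Submodule.smul_mem _ c hx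

/-- conjugation on the span of the image -/
def conjRep (φ : G →* Matrix n n k) : G →* End k (spanOf φ) where
  toFun g :=
    { toFun := fun M => ⟨φ g * M.1 * φ g⁻¹, conj_mem φ g M.2⟩
      map_add' := fun x y => Subtype.ext (by simp [mul_add, add_mul])
      map_smul' := fun c x => Subtype.ext (by simp) }
  map_one' := by ext M; simp
  map_mul' g h := by
    ext M
    simp [Matrix.mul_assoc]

lemma conjRep_ker (φ : G →* Matrix n n k) (hφ : Function.Injective φ) :
    (conjRep φ).toHomUnits.ker = Subgroup.center G := by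
  ext g
  rw [MonoidHom.mem_ker, Subgroup.mem_center_iff, Units.ext_iff]
  constructor
  · intro h y
    have h1 : (conjRep φ g ⟨φ y, Submodule.subset_span ⟨y, rfl⟩⟩).1 = φ y := by
      have : conjRep φ g = 1 := h
      rw [this]; rfl
    have h2 : φ (g * y * g⁻¹) = φ y := by rw [map_mul, map_mul]; exact h1
    have h3 := hφ h2
    rw [← h3, mul_assoc (g * y), inv_mul_cancel, mul_one, h3]
  · intro h
    show conjRep φ g = 1
    ext1 ⟨M, hM⟩
    apply Subtype.ext
    show φ g * M * φ g⁻¹ = M
    induction hM using Submodule.span_induction with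
    | mem x hx =>
      obtain ⟨y, rfl⟩ := hx
      rw [← map_mul, ← map_mul, ← h y, mul_inv_cancel_right]
    | zero => simp
    | add x y _ _ hx hy => rw [mul_add, add_mul, hx, hy]
    | smul c x _ hx => rw [Matrix.mul_smul, Matrix.smul_mul, hx]

end modZ

/-- A matrix group of degree `n` modulo its centre is a linear group of degree at most `n ^ 2`. -/
theorem linDim_modZ {G : Type*} [Group G] {F : Type} [Field F] (p : ℕ) [CharP F p] {n : Type}
    [Fintype n] [DecidableEq n] (φ : G →* Matrix n n F) (hφ : Function.Injective φ) :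
    LinDim p (Fintype.card n ^ 2) (G ⧸ Subgroup.center G) := by
  let k := AlgebraicClosure F
  let ψ : G →* Matrix n n k := (algebraMap F k).mapMatrix.toMonoidHom.comp φ
  have hψ : Function.Injective ψ := by
    intro a b hab
    apply hφ
    ext i j
    exact (algebraMap F k).injective (congrFun (congrFun hab i) j)
  have hk := conjRep_ker ψ hψ
  refine ⟨k, inferInstance, inferInstance, inferInstance, spanOf ψ, inferInstance, inferInstance,
    inferInstance, (Units.coeHom _).comp (QuotientGroup.lift _ (conjRep ψ).toHomUnits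
      (fun x hx => by rw [← hk] at hx; exact hx)), ?_, ?_⟩
  · refine Units.val_injective.comp ?_
    rw [← MonoidHom.ker_eq_bot_iff, QuotientGroup.ker_lift, hk, QuotientGroup.map_mk'_self]
  · refine (Submodule.finrank_le _).trans ?_
    rw [Module.finrank_matrix]
    simp [pow_two]

/-- A matrix group of degree `n` is a linear group of degree at most `n`. -/
theorem linDim_matrix {G : Type*} [Group G] {F : Type} [Field F] (p : ℕ) [CharP F p] {n : Type}
    [Fintype n] [DecidableEq n] (φ : G →* Matrix n n F) (hφ : Function.Injective φ) :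
    LinDim p (Fintype.card n) G := by
  let k := AlgebraicClosure F
  let ψ : G →* Matrix n n k := (algebraMap F k).mapMatrix.toMonoidHom.comp φ
  have hψ : Function.Injective ψ := by
    intro a b hab
    apply hφ
    ext i j
    exact (algebraMap F k).injective (congrFun (congrFun hab i) j)
  refine ⟨k, inferInstance, inferInstance, inferInstance, n → k, inferInstance, inferInstance,
    inferInstance, (Matrix.toLinAlgEquiv' (R := k) (n := n)).toMonoidHom.comp ψ,
    (Matrix.toLinAlgEquiv' (R := k) (n := n)).injective.comp hψ, by simp⟩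

section sl

variable {F : Type} [Field F] {n : Type} [Fintype n] [DecidableEq n]

/-- the transvection `1 + v f`, where `f v = 0` -/
def tv (v f : n → F) (h : f ⬝ᵥ v = 0) : SpecialLinearGroup n F :=
  ⟨1 + vecMulVec v f, by
    rw [vecMulVec_eq Unit, det_one_add_replicateCol_mul_replicateRow, h, add_zero]⟩

@[simp] lemma tv_val (v f : n → F) (h : f ⬝ᵥ v = 0) : (tv v f h).1 = 1 + vecMulVec v f := rfl

lemma vmv_mul (v f w g : n → F) : vecMulVec v f * vecMulVec w g = (f ⬝ᵥ w) • vecMulVec v g := by
  ext i j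
  simp [mul_apply, vecMulVec_apply, dotProduct, Finset.sum_mul, Finset.mul_sum, mul_assoc,
    mul_comm, mul_left_comm]

lemma tv_mul_left (v w f : n → F) (h : f ⬝ᵥ v = 0) (h' : f ⬝ᵥ w = 0) :
    tv v f h * tv w f h' = tv (v + w) f (by simp [h, h']) := by
  apply Subtype.ext
  simp [mul_add, add_mul, vmv_mul, h', add_vecMulVec]
  abel

lemma tv_mul_right (v f g : n → F) (h : f ⬝ᵥ v = 0) (h' : g ⬝ᵥ v = 0) :
    tv v f h * tv v g h' = tv v (f + g) (by simp [h, h']) := by
  apply Subtype.ext
  simp [mul_add, add_mul, vmv_mul, h, vecMulVec_add]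
  abel

lemma tv_zero_left (f : n → F) : tv 0 f (by simp) = 1 := Subtype.ext (by simp)

lemma tv_inv (v f : n → F) (h : f ⬝ᵥ v = 0) : (tv v f h)⁻¹ = tv (-v) f (by simp [h]) := by
  rw [eq_comm, eq_inv_iff_mul_eq_one, tv_mul_left]
  simp only [neg_add_cancel]
  exact tv_zero_left f

lemma tv_pow (v f : n → F) (h : f ⬝ᵥ v = 0) (m : ℕ) :
    tv v f h ^ m = tv ((m : F) • v) f (by simp [h]) := by
  induction m with
  | zero => simp only [pow_zero, Nat.cast_zero, zero_smul]; exact (tv_zero_left f).symm
  | succ m ih => rw [pow_succ, ih, tv_mul_left]; simp [add_smul]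

lemma tv_pow_char (p : ℕ) [CharP F p] (v f : n → F) (h : f ⬝ᵥ v = 0) : tv v f h ^ p = 1 := by
  rw [tv_pow]
  simp only [CharP.cast_eq_zero, zero_smul]
  exact tv_zero_left f

/-- conjugation of `1 + w g` by `1 + v f`, where `g v = 0` -/
lemma tv_conj (v f w g : n → F) (h : f ⬝ᵥ v = 0) (h' : g ⬝ᵥ w = 0) (hgv : g ⬝ᵥ v = 0) :
    tv v f h * tv w g h' * (tv v f h)⁻¹ = tv (w + (f ⬝ᵥ w) • v) g (by simp [h', hgv]) := by
  rw [mul_inv_eq_iff_eq_mul]
  apply Subtype.ext
  simp [mul_add, add_mul, vmv_mul, h, hgv, add_vecMulVec, smul_vecMulVec]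
  abel

/-- the group of the transvections with a given axis -/
def axisGrp (g : n → F) : Subgroup (SpecialLinearGroup n F) where
  carrier := {x | ∃ w h, x = tv w g h}
  one_mem' := ⟨0, by simp, (tv_zero_left g).symm⟩
  mul_mem' := by
    rintro _ _ ⟨v, h, rfl⟩ ⟨w, h', rfl⟩
    exact ⟨_, _, tv_mul_left v w g h h'⟩
  inv_mem' := by
    rintro _ ⟨v, h, rfl⟩
    exact ⟨_, _, tv_inv v g h⟩

/-- An elementary transvection carries Heisenberg data of size `q ^ (n - 2)`. -/
theorem heis_tv [Finite F] {a b : n} (hab : a ≠ b) (c : F) :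
    Heis (tv (Pi.single a c) (Pi.single b 1) (by simp [hab])) (Nat.card F ^ (Fintype.card n - 2)) := by
  let J := {i : n // i ≠ a ∧ i ≠ b}
  let ext : (J → F) → n → F := fun f i => if h : i ≠ a ∧ i ≠ b then f ⟨i, h⟩ else 0
  have ha : ∀ f, ext f a = 0 := fun f => by simp [ext]
  refine ⟨axisGrp (Pi.single b 1), J → F, inferInstance,
    fun f => tv (Pi.single a 1) (ext f) (by simp [ha]), ?_, ⟨_, _, rfl⟩, ?_, ?_, ?_⟩
  · rw [Nat.card_fun, Nat.card_eq_fintype_card (α := J)]
    apply le_of_eq
    congr 1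
    have : Fintype.card J = (({a, b} : Finset n)ᶜ).card := by
      rw [← Fintype.card_coe]
      exact Fintype.card_congr (Equiv.subtypeEquivRight (by simp))
    rw [this, Finset.card_compl, Finset.card_pair hab]
  · rintro _ ⟨v, h, rfl⟩ _ ⟨w, h', rfl⟩
    rw [tv_mul_left, tv_mul_left]
    simp only [add_comm]
  · rintro f _ ⟨w, h, rfl⟩
    exact ⟨_, _, tv_conj _ _ _ _ _ _ (by simp [hab.symm])⟩
  · intro f g hfg
    obtain ⟨j, hj⟩ := Function.ne_iff.1 hfg
    have hj' := sub_ne_zero.2 hj
    refine ⟨tv (Pi.single j.1 (c / (f j - g j))) (Pi.single b 1) (by simp [j.2.2.symm]),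
      ⟨_, _, rfl⟩, ?_⟩
    rw [tv_conj _ _ _ _ _ _ (by simp [hab.symm]), tv_conj _ _ _ _ _ _ (by simp [hab.symm]),
      tv_mul_left]
    congr 1
    have e1 : ∀ f, ext f j.1 = f j := fun f => by simp [ext, j.2]
    simp only [dotProduct_single, e1]
    ext i
    simp only [Pi.add_apply, Pi.smul_apply, smul_eq_mul, Pi.single_apply]
    split_ifs <;> field_simp <;> ring

lemma tv_not_center {a b : n} (hab : a ≠ b) {c : F} (hc : c ≠ 0) :
    tv (Pi.single a c) (Pi.single b 1) (by simp [hab]) ∉
      Subgroup.center (SpecialLinearGroup n F) := by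
  intro h
  obtain ⟨r, _, hr⟩ := SpecialLinearGroup.mem_center_iff.1 h
  have := congrFun (congrFun hr a) b
  simp [vecMulVec_apply, hab, one_apply] at this
  exact hc this.symm

end sl

/-- `Y` contains an image of `SL_m(F)` with central kernel. -/
def HasSL (m : ℕ) (F : Type) [Field F] (Y : Type*) [Group Y] : Prop :=
  ∃ ψ : SpecialLinearGroup (Fin m) F →* Y, ψ.ker ≤ Subgroup.center _

lemma HasSL.of_inj {m : ℕ} {F : Type} [Field F] {Y Z : Type*} [Group Y] [Group Z]
    (h : HasSL m F Y) (f : Y →* Z) (hf : Function.Injective f) : HasSL m F Z := by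
  obtain ⟨ψ, hψ⟩ := h
  refine ⟨f.comp ψ, fun x hx => hψ ?_⟩
  exact hf (by simpa using hx)

/-- **Cross characteristic bound.** -/
theorem HasSL.cross {m p r d : ℕ} {F : Type} [Field F] [Finite F] [CharP F r] {Y : Type*} [Group Y]
    (h : HasSL m F Y) (hm : 2 ≤ m) (hpr : ¬ p ∣ r) (hl : LinDim p d Y) :
    Nat.card F ^ (m - 2) ≤ d := by
  obtain ⟨ψ, hψ⟩ := h
  have hab : (⟨0, by omega⟩ : Fin m) ≠ ⟨1, by omega⟩ := by simp
  have h1 := (heis_tv (F := F) hab 1).map ψ
  rw [Fintype.card_fin] at h1
  refine h1.le_of_linDim hpr ?_ (fun e => tv_not_center hab one_ne_zero (hψ e)) hl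
  rw [← map_pow, tv_pow_char, map_one]

end Vale.Agent.P183XC
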