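import Mathlib.LinearAlgebra.Eigenspace.Pi
import Mathlib.LinearAlgebra.Eigenspace.Triangularizable
import Mathlib.LinearAlgebra.Matrix.GeneralLinearGroup.Defs
import Mathlib.FieldTheory.IsAlgClosed.AlgebraicClosure
import Mathlib.LinearAlgebra.Dimension.Constructions
import Mathlib.GroupTheory.Subgroup.Center
import Mathlib.GroupTheory.OrderOfElement

/-!
Faithful linear representations in characteristic `p`, and a lower bound for their dimension.
-/

set_option autoImplicit false

namespace Vale.Agent.P183XC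

open Module

/-- `G` has a faithful representation of dimension at most `d` over an algebraically closed field of
characteristic `p`. -/
def LinDim (p d : ℕ) (G : Type*) [Group G] : Prop :=
  ∃ (k : Type) (_ : Field k) (_ : IsAlgClosed k) (_ : CharP k p) (V : Type) (_ : AddCommGroup V)
    (_ : Module k V) (_ : FiniteDimensional k V) (ρ : G →* End k V),
    Function.Injective ρ ∧ finrank k V ≤ d

lemma LinDim.of_inj {p d : ℕ} {G H : Type*} [Group G] [Group H] (h : LinDim p d G) (f : H →* G)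
    (hf : Function.Injective f) : LinDim p d H := by
  obtain ⟨k, i1, i2, i3, V, i4, i5, i6, ρ, h1, h2⟩ := h
  exact ⟨k, i1, i2, i3, V, i4, i5, i6, ρ.comp f, h1.comp hf, h2⟩

lemma LinDim.sub {p d : ℕ} {G : Type*} [Group G] (h : LinDim p d G) (H : Subgroup G) :
    LinDim p d H := h.of_inj H.subtype Subtype.val_injective

lemma LinDim.mono {p d e : ℕ} {G : Type*} [Group G] (h : LinDim p d G) (hde : d ≤ e) :
    LinDim p e G := by
  obtain ⟨k, i1, i2, i3, V, i4, i5, i6, ρ, h1, h2⟩ := h
  exact ⟨k, i1, i2, i3, V, i4, i5, i6, ρ, h1, h2.trans hde⟩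

section eig

variable {k V : Type*} [Field k] [AddCommGroup V] [Module k V]

/-- A commuting family has a common eigenvector in each nonzero invariant subspace. -/
lemma exists_common [IsAlgClosed k] [FiniteDimensional k V] {ι : Type*} (f : ι → End k V)
    (hc : ∀ i j, f i * f j = f j * f i) (W : Submodule k V) (hW : W ≠ ⊥)
    (hinv : ∀ i, ∀ v ∈ W, f i v ∈ W) :
    ∃ v ∈ W, v ≠ 0 ∧ ∀ i, ∃ c : k, f i v = c • v := by
  induction hn : finrank k W using Nat.strong_induction_on generalizing W with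
  | _ n ih =>
  by_cases hall : ∀ i, ∃ c : k, ∀ v ∈ W, f i v = c • v
  · obtain ⟨v, hv, hv0⟩ := Submodule.exists_mem_ne_zero_of_ne_bot hW
    exact ⟨v, hv, hv0, fun i => (hall i).imp fun c hc => hc v hv⟩
  · push Not at hall
    obtain ⟨i, hi⟩ := hall
    have : Nontrivial W := Submodule.nontrivial_iff_ne_bot.2 hW
    obtain ⟨c, hc'⟩ := End.exists_eigenvalue ((f i).restrict (p := W) (q := W) (hinv i))
    obtain ⟨w, hw⟩ := hc'.exists_hasEigenvector
    have hw1 : f i w.1 = c • w.1 := by
      have := congrArg Subtype.val hw.apply_eq_smul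
      simpa using this
    let W' : Submodule k V := W ⊓ LinearMap.ker (f i - c • (1 : End k V))
    have hmem : ∀ v, v ∈ W' ↔ v ∈ W ∧ f i v = c • v := by
      intro v
      simp [W', sub_eq_zero]
    have hlt : W' < W := by
      refine lt_of_le_of_ne inf_le_left fun h => ?_
      obtain ⟨v, hv, hne⟩ := hi c
      exact hne ((hmem v).1 (h ▸ hv)).2
    have hne : W' ≠ ⊥ := by
      intro h
      have : w.1 ∈ W' := (hmem _).2 ⟨w.2, hw1⟩
      rw [h, Submodule.mem_bot] at this
      exact hw.2 (Subtype.ext this)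
    obtain ⟨v, hv, hv0, hv1⟩ := ih _ (hn ▸ Submodule.finrank_lt_finrank_of_lt hlt) W' hne (by
      intro j v hv
      rw [hmem] at hv ⊢
      refine ⟨hinv j v hv.1, ?_⟩
      have := congrArg (fun g : End k V => g v) (hc i j)
      simp only [End.mul_apply] at this
      rw [this, hv.2, map_smul]) rfl
    exact ⟨v, hlt.le hv, hv0, hv1⟩

/-- Common eigenvectors with distinct weights are linearly independent. -/
lemma card_le_of_weights [FiniteDimensional k V] {ι I : Type*} [Finite I] (f : ι → End k V)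
    (hc : ∀ i j, f i * f j = f j * f i) (v : I → V) (hv : ∀ a, v a ≠ 0) (χ : I → ι → k)
    (hχ : ∀ a i, f i (v a) = χ a i • v a) (hinj : Function.Injective χ) :
    Nat.card I ≤ finrank k V := by
  have h1 := End.independent_iInf_maxGenEigenspace_of_forall_mapsTo f
    (fun i j φ => End.mapsTo_maxGenEigenspace_of_comm (hc j i) φ)
  have h2 := iSupIndep.linearIndependent _ (h1.comp hinj) (v := v) (by
    intro a
    refine (End.mem_iInf_maxGenEigenspace_iff f (χ a) (v a)).2 fun j => ?_
    exact ⟨1, by simp [hχ a j]⟩) hv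
  have := Fintype.ofFinite I
  rw [Nat.card_eq_fintype_card]
  exact h2.fintype_card_le_finrank

/-- An endomorphism of finite order prime to the characteristic has no Jordan block for `1`. -/
lemma fix_of_range {g : End k V} {r : ℕ} (hr : (r : k) ≠ 0) (hg : g ^ r = 1) {v : V}
    (hv : g (g v - v) = g v - v) : g v = v := by
  have h1 : ∀ n : ℕ, (g ^ n) v = v + (n : k) • (g v - v) := by
    intro n
    induction n with
    | zero => simp
    | succ n ih =>
      rw [pow_succ', End.mul_apply, ih, map_add, map_smul, hv]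
      push_cast
      rw [add_smul, one_smul]
      abel
  have h2 := h1 r
  rw [hg] at h2
  have h3 : (r : k) • (g v - v) = 0 := by simpa using h2
  exact sub_eq_zero.1 ((smul_eq_zero.1 h3).resolve_left hr)

end eig

/-- Heisenberg data of size `M` in `G` at `a0`: an abelian subgroup `A` that contains `a0`, and `M`
elements normalising `A`, such that `a0` is the quotient of the conjugates of some element of `A` under
any two of them. -/
def Heis {G : Type*} [Group G] (a0 : G) (M : ℕ) : Prop :=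
  ∃ (A : Subgroup G) (I : Type) (_ : Finite I) (t : I → G), M ≤ Nat.card I ∧ a0 ∈ A ∧
    (∀ x ∈ A, ∀ y ∈ A, x * y = y * x) ∧ (∀ i, ∀ x ∈ A, t i * x * (t i)⁻¹ ∈ A) ∧
    ∀ i j, i ≠ j → ∃ x ∈ A, t i * x * (t i)⁻¹ = a0 * (t j * x * (t j)⁻¹)

lemma Heis.map {G H : Type*} [Group G] [Group H] {a0 : G} {M : ℕ} (h : Heis a0 M) (f : G →* H) :
    Heis (f a0) M := by
  obtain ⟨A, I, i1, t, h1, h2, h3, h4, h5⟩ := h
  refine ⟨A.map f, I, i1, fun i => f (t i), h1, ⟨a0, h2, rfl⟩, ?_, ?_, ?_⟩
  · rintro _ ⟨x, hx, rfl⟩ _ ⟨y, hy, rfl⟩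
    rw [← map_mul, h3 x hx y hy, map_mul]
  · rintro i _ ⟨x, hx, rfl⟩
    exact ⟨_, h4 i x hx, by simp⟩
  · intro i j hij
    obtain ⟨x, hx, e⟩ := h5 i j hij
    exact ⟨f x, ⟨x, hx, rfl⟩, by simpa using congrArg f e⟩

theorem Heis.le_finrank {G k V : Type*} [Group G] [Field k] [IsAlgClosed k] [AddCommGroup V]
    [Module k V] [FiniteDimensional k V] (ρ : G →* End k V) {a0 : G} {M r : ℕ} (h : Heis a0 M)
    (hr : (r : k) ≠ 0) (ha : a0 ^ r = 1) (hne : ρ a0 ≠ 1) : M ≤ finrank k V := by
  obtain ⟨A, I, i1, t, h1, h2, h3, h4, h5⟩ := h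
  let f : A → End k V := fun x => ρ x
  have hc : ∀ x y : A, f x * f y = f y * f x := by
    intro x y
    simp only [f, ← map_mul, h3 x x.2 y y.2]
  obtain ⟨v, hv, hv0, hv1⟩ := exists_common f hc (LinearMap.range (ρ a0 - 1)) (by
    intro h
    exact hne (sub_eq_zero.1 (LinearMap.range_eq_bot.1 h))) (by
    rintro x _ ⟨w, rfl⟩
    refine ⟨f x w, ?_⟩
    have := congrArg (fun g : End k V => g w) (hc x ⟨a0, h2⟩)
    simp only [End.mul_apply, f] at this
    simp [f, this])
  choose c hc1 using hv1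
  have hc0 : c ⟨a0, h2⟩ ≠ 1 := by
    intro h
    obtain ⟨w, rfl⟩ := hv
    have e1 := hc1 ⟨a0, h2⟩
    rw [h, one_smul] at e1
    have e2 : ρ a0 w = w := fix_of_range hr (by rw [← map_pow, ha, map_one]) (by simpa [f] using e1)
    exact hv0 (by simp [e2])
  have hcne : ∀ x, c x ≠ 0 := by
    intro x hx
    have e1 := hc1 x
    rw [hx, zero_smul] at e1
    have : ρ (x.1⁻¹) (ρ x v) = v := by rw [← End.mul_apply, ← map_mul]; simp
    rw [show ρ x.1 v = 0 from e1, map_zero] at this
    exact hv0 this.symm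
  refine h1.trans (card_le_of_weights f hc (fun i => ρ (t i)⁻¹ v) ?_
    (fun i x => c ⟨t i * x * (t i)⁻¹, h4 i x x.2⟩) ?_ ?_)
  · intro i hi
    have : ρ (t i) (ρ (t i)⁻¹ v) = v := by rw [← End.mul_apply, ← map_mul]; simp
    rw [hi, map_zero] at this
    exact hv0 this.symm
  · intro i x
    have e1 := hc1 ⟨t i * x * (t i)⁻¹, h4 i x x.2⟩
    rw [← map_smul, ← e1]
    simp only [f]
    rw [← End.mul_apply, ← End.mul_apply, ← map_mul, ← map_mul]
    congr 2
    group
  · intro i j hij
    by_contra hne'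
    obtain ⟨x, hx, e⟩ := h5 i j hne'
    have e1 := congrFun hij ⟨x, hx⟩
    have e2 := hc1 ⟨t i * x * (t i)⁻¹, h4 i x hx⟩
    have e3 := hc1 ⟨t j * x * (t j)⁻¹, h4 j x hx⟩
    have e4 := hc1 ⟨a0, h2⟩
    simp only [f] at e1 e2 e3 e4
    rw [e1, e, map_mul, End.mul_apply, e3, map_smul, e4, smul_smul] at e2
    have e5 := smul_left_injective k hv0 e2
    exact hc0 (mul_left_cancel₀ (hcne _) (e5.trans (mul_one _).symm))

/-- The bound for a faithful representation in characteristic `p`. -/
theorem Heis.le_of_linDim {G : Type*} [Group G] {a0 : G} {M r p d : ℕ} (h : Heis a0 M)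
    (hr : ¬ p ∣ r) (ha : a0 ^ r = 1) (hne : a0 ≠ 1) (hl : LinDim p d G) : M ≤ d := by
  obtain ⟨k, i1, i2, i3, V, i4, i5, i6, ρ, h1, h2⟩ := hl
  refine (h.le_finrank ρ (r := r) ?_ ha ?_).trans h2
  · rwa [Ne, CharP.cast_eq_zero_iff k p]
  · intro e
    exact hne (h1 (e.trans (map_one ρ).symm))

end Vale.Agent.P183XC
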